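import Vale.Agent.P088.R2.H31.EP.CstL
import Vale.Agent.P088.R2.H475.Z.FrmD
import Vale.Agent.P088.R2.H606.EP.Loc
import Vale.Agent.P088.R2.H86.Z.PT5
import Vale.Agent.P088.R2.H870.Z2.Spec

/-!
# P088, zone II: the geometry and the frames on the package

On helper606's local data `Loc q d z`: helper86's structure `Gd` on the ball `Ob z`, helper464's
frames `Fr2` with the smooth roots `rt`, helper870's `MB`, helper814's `Fr`, helper86's `El`.
-/

open Set Filter
open scoped ContDiff Topology Matrix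

noncomputable section

namespace Vale.Agent.P088.R2.H475.Z

open Vale.Agent.P088.LR Vale.Agent.P088.R2.H961.GW
open Vale.Agent.P088.HY hiding dd dd_comm
open Vale.Agent.P088.R2.H464.Cu hiding uf
open Vale.Agent.P088.R2.H31.EP Vale.Agent.P088.R2.H606.EP
open Vale.Agent.P088.R2.H983.Fl (Wn lam gl)

variable {n : ℕ}

/-! ## General -/

/-- The form of a matrix near `1`. -/
theorem bf_near {S : Matrix (Fin n) (Fin n) ℝ} {ε : ℝ}
    (h : ∀ i j, |S i j - (1 : Matrix (Fin n) (Fin n) ℝ) i j| ≤ ε) (v : V n) :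
    |bf S v v - dt v v| ≤ n * ε * dt v v := by
  have e1 : bf S v v - dt v v = bf (S - 1) v v := by
    unfold bf dt
    simp only [Matrix.sub_apply, sub_mul, Finset.sum_sub_distrib, Matrix.one_apply]
    simp
  rw [e1]
  unfold bf
  have h2 : ∀ i j, |(S - 1) i j * v i * v j| ≤ ε * (1 / 2 * (v i * v i) + 1 / 2 * (v j * v j)) := by
    intro i j
    rw [abs_mul, abs_mul, mul_assoc]
    have h3 : |v i| * |v j| ≤ 1 / 2 * (v i * v i) + 1 / 2 * (v j * v j) := by
      nlinarith [sq_nonneg (|v i| - |v j|), abs_mul_abs_self (v i), abs_mul_abs_self (v j)]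
    have h4 := h i j
    have h5 : 0 ≤ ε := (abs_nonneg _).trans h4
    rw [Matrix.sub_apply]
    gcongr
  refine (Finset.abs_sum_le_sum_abs _ _).trans ?_
  refine (Finset.sum_le_sum fun i _ => (Finset.abs_sum_le_sum_abs _ _).trans
    (Finset.sum_le_sum fun j _ => h2 i j)).trans ?_
  have h6 : (∑ i, ∑ j, ε * (1 / 2 * (v i * v i) + 1 / 2 * (v j * v j))) = n * ε * dt v v := by
    unfold dt
    simp only [← Finset.mul_sum, Finset.sum_add_distrib, Finset.sum_const, Finset.card_univ,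
      Fintype.card_fin, nsmul_eq_mul]
    have h7 : ∑ i, v i * (n * v i) = n * ∑ i, v i * v i := by
      rw [Finset.mul_sum]
      exact Finset.sum_congr rfl fun i _ => by ring
    rw [h7]
    ring
  exact le_of_eq h6

/-- **The frames with the smooth roots.** -/
theorem frames_rt {O : Set (V n)} {ε δ₁ δ₂ h₀ h₁ : ℝ} {s₁ s₂ g : MF n} {z : VV n}
    (hO : IsOpen O) (hc : Convex ℝ O) (n₁ : Nr O ε δ₁ δ₂ s₁) (n₂ : Nr O ε δ₁ δ₂ s₂)
    (ng : Nr O ε δ₁ δ₂ g) (hh : Dst O h₀ h₁ s₁ s₂) (hδ : 0 ≤ δ₁) (hh0 : 0 ≤ h₀)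
    (hε1 : ε ≤ 1) (hε : n * ε ≤ 1 / 2) (hx : z.1 ∈ O) (hy : z.2 ∈ O)
    (hg : g (mid z) * s₁ (mid z) = 1) :
    ∃ Ψ, Fr2 s₁ s₂ g ε (δ₁ * ‖dif z‖ + h₀) z (rt (s₁ z.1)) (rt (s₂ z.2)) Ψ := by
  obtain ⟨F₁, F₂, Ψ, f⟩ := frames hO hc n₁ n₂ ng hh hδ hh0 hε1 hε hx hy hg
  have e1 : rt (s₁ z.1) = F₁ := rt_eq (nr_gd n₁ hε hx) ⟨f.y1, f.q1, f.p1⟩
  have e2 : rt (s₂ z.2) = F₂ := rt_eq (nr_gd n₂ hε hy) ⟨f.y2, f.q2, f.p2⟩
  rw [e1, e2]
  exact ⟨Ψ, f⟩

/-! ## On the package -/

section pk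

variable {q : Cst} {d : Pk n} {z : VV n}

/-- The size of the difference of the tensors. -/
def hP (q : Cst) (d : Pk n) (z : VV n) : ℝ :=
  q.ε * Real.exp (-(100 * (d.l (mid z) - 2 * n)))

/-- The same for the first derivatives. -/
def hP₁ (q : Cst) (d : Pk n) (z : VV n) : ℝ :=
  q.ε * q.R⁻¹ * Real.exp (-(100 * (d.l (mid z) - 2 * n)))

theorem hP_le (hε : 0 ≤ q.ε) (hl : -1 ≤ d.l (mid z)) :
    hP q d z ≤ q.ε * Real.exp (200 * n + 1) * Real.exp (-(99 * d.l (mid z))) := by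
  unfold hP
  rw [mul_assoc, ← Real.exp_add]
  gcongr
  linarith

variable (h : PkOk q d) (m : Lm n q)
include h m

omit m in
theorem gdl (hε : 0 ≤ q.ε) : 0 ≤ hP q d z := by unfold hP; positivity

/-- The derivatives of the level near `z`. -/
theorem loc_pd (L : Loc q d z) {x : V n} (hx : x ∈ Ob z) (k : Fin n) :
    pd k d.l x = H606.EP.wv n q.σ q.R k x := by
  have hR : q.R ≠ 0 := by have := m.R1; positivity
  have h1 : d.l =ᶠ[𝓝 x] lv n q.σ q.R d.kap d.Gs := L.el.eventuallyEq_of_mem ((Ob_open z).mem_nhds hx)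
  have h2 : pd k d.l x = pd k (lv n q.σ q.R d.kap d.Gs) x := by
    unfold pd
    rw [h1.fderiv_eq]
  rw [h2, lv_pd hR]

theorem loc_pd2 (L : Loc q d z) {x : V n} (hx : x ∈ Ob z) (j k : Fin n) :
    pd j (pd k d.l) x = if j = k then q.σ * q.R⁻¹ else 0 := by
  have hR : q.R ≠ 0 := by have := m.R1; positivity
  have h1 : pd k d.l =ᶠ[𝓝 x] H606.EP.wv n q.σ q.R k := by
    filter_upwards [(Ob_open z).mem_nhds hx] with y hy using loc_pd h m L hy k
  have h2 : pd j (pd k d.l) x = pd j (H606.EP.wv n q.σ q.R k) x := by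
    unfold pd at h1 ⊢
    rw [h1.fderiv_eq]
  rw [h2, wv_pd]

/-- **The second derivative of the level is `σ / R` times the identity.** -/
theorem loc_hess (L : Loc q d z) {x : V n} (hx : x ∈ Ob z) (v : V n) :
    fderiv ℝ (fun x => fderiv ℝ d.l x v) x v = q.σ * q.R⁻¹ * dt v v := by
  have e : ∀ y ∈ Ob z, fderiv ℝ d.l y v = ∑ k, v k * pd k d.l y := fun y _ => fd_pd _ y v
  have h1 : (fun y => fderiv ℝ d.l y v) =ᶠ[𝓝 x] fun y => ∑ k, v k * pd k d.l y := by
    filter_upwards [(Ob_open z).mem_nhds hx] with y hy using e y hy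
  have hd : ∀ k, DifferentiableAt ℝ (pd k d.l) x := fun k =>
    df_of (Ob_open z) (sm_pd (Ob_open z) L.lb.sm k) hx
  rw [h1.fderiv_eq, fderiv_fun_sum fun k _ => (hd k).const_mul (v k)]
  simp only [_root_.sum_apply]
  have e2 : ∀ k, fderiv ℝ (fun y => v k * pd k d.l y) x v = v k * (q.σ * q.R⁻¹ * v k) := by
    intro k
    rw [fderiv_const_mul (hd k), _root_.smul_apply, smul_eq_mul, fd_pd]
    congr 1
    simp only [loc_pd2 h m L hx]
    simp
    ring
  simp only [e2]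
  unfold dt
  rw [Finset.mul_sum]
  exact Finset.sum_congr rfl fun k _ => by ring

/-- The size of the gradient. -/
theorem loc_grad (L : Loc q d z) : 1 - q.σ / 2 ≤ dt (gl d.l (mid z)) (gl d.l (mid z)) ∧
    dt (gl d.l (mid z)) (gl d.l (mid z)) ≤ 1 + 5 * q.σ := by
  have hR : 0 < q.R := by linarith [m.R1]
  have hn : 0 < n := m.n1
  have hσ := m.σ0
  have e : dt (gl d.l (mid z)) (gl d.l (mid z)) = ∑ k, H606.EP.wv n q.σ q.R k (mid z) ^ 2 := by
    unfold dt gl
    refine Finset.sum_congr rfl fun k _ => ?_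
    rw [loc_pd h m L (mid_Ob z), pow_two]
  rw [e, wv_sq hn, gy_lv (kap := d.kap) (Gs := d.Gs) hR.ne', ← L.el (mid_Ob z)]
  have el0 : d.l₀ q = Real.log (d.kap / q.R) - q.R * d.Gs := rfl
  rw [← el0]
  have h1 := L.lo
  have h2 := L.hi
  have h3 : -(1 / 4) ≤ (d.l (mid z) - d.l₀ q) / q.R := by
    rw [le_div_iff₀ hR]; linarith
  have h4 : (d.l (mid z) - d.l₀ q) / q.R ≤ 236 / 100 := by
    rw [div_le_iff₀ hR]; linarith
  constructor <;> nlinarith

/-- **`λ` is near `1`.** -/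
theorem loc_lam (L : Loc q d z) : 9 / 10 ≤ lam d.s₁ d.l (mid z) ∧ lam d.s₁ d.l (mid z) ≤ 11 / 10 := by
  obtain ⟨n₁, -, -⟩ := ten h m univ isOpen_univ
  have h1 := abs_le.1 (bf_near (n₁.b0 (mid z) (mem_univ _)) (gl d.l (mid z)))
  have h2 := (eT_le h m).1
  obtain ⟨h3, h4⟩ := loc_grad h m L
  have h5 := m.σ1
  have h6 := m.σ0
  have h0 := dt_nonneg (gl d.l (mid z))
  have h7 : (n : ℝ) * (cT n * q.ε) * dt (gl d.l (mid z)) (gl d.l (mid z)) ≤
      1 / 8 * dt (gl d.l (mid z)) (gl d.l (mid z)) := mul_le_mul_of_nonneg_right h2 h0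
  unfold lam
  constructor
  · apply Real.le_sqrt_of_sq_le
    linarith [h1.1]
  · rw [Real.sqrt_le_left (by norm_num)]
    linarith [h1.2]

/-- The distance of the tensors near `z`. -/
theorem loc_dst (L : Loc q d z) : Dst (Ob z) (hP q d z) (hP₁ q d z) d.s₁ d.s₂ := by
  have hR : 0 < q.R := by linarith [m.R1]
  refine rg_dst h.rg (by norm_num) m.ε0 hR (by norm_num) fun x hx => ?_
  rw [← L.el hx]
  have h1 := (abs_le.1 (lb_var (Ob_open z) (Ob_convex z) L.lb hx (mid_Ob z) (by norm_num))).1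
  have h2 : ‖x - mid z‖ ≤ 1 := by
    have : dist x (mid z) < 1 := hx
    rw [dist_eq_norm] at this
    exact this.le
  have h4 : n * 2 * ‖x - mid z‖ ≤ n * 2 * 1 := mul_le_mul_of_nonneg_left h2 (by positivity)
  linarith

/-- `g s₁ = 1`. -/
theorem loc_gs (x : V n) : gi d.s₁ x * d.s₁ x = 1 := by
  have hR : 0 < q.R := by linarith [m.R1]
  exact ((rg_ng h.rg (by norm_num) m.ε0 hR isOpen_univ m.εI m.ε1).2 x (mem_univ x)).1

/-- **The geometric data of zone II on the package.** -/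
theorem gdP (L : Loc q d z) (w : Wn n) (ws : w.s = d.s₁) (wg : w.g = gi d.s₁) (wl : w.l = d.l) :
    H86.Z.Gd (Ob z) (cT n * q.ε) (cT n * q.ε * q.R⁻¹) (cT n * q.ε * q.R⁻¹ ^ 2) (hP q d z)
      (hP₁ q d z) 2 (q.σ * q.R⁻¹) (q.σ * q.R⁻¹) w d.s₂ z := by
  have hR : 0 < q.R := by linarith [m.R1]
  have hi : 0 ≤ q.R⁻¹ := inv_nonneg.2 hR.le
  have hσ := m.σ0
  have hε := m.ε0
  have hc : 0 ≤ cT n := by linarith [cT_ge n]
  obtain ⟨n₁, n₂, ng⟩ := ten h m (Ob z) (Ob_open z)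
  have t := eT_le h m
  refine
    { hO := Ob_open z
      hc := Ob_convex z
      n₁ := by rw [ws]; exact n₁
      n₂ := n₂
      ng := by rw [wg]; exact ng
      hh := by rw [ws]; exact loc_dst h m L
      hδ := by positivity
      hδ' := by positivity
      hh0 := by unfold hP; positivity
      hh1 := by unfold hP₁; positivity
      hε1 := by linarith [t.2]
      hε := by linarith [t.1]
      hx := L.hx
      hy := L.hy
      hg := by rw [ws, wg]; exact loc_gs h m _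
      hl := by rw [wl]; exact L.lb.sm
      hG0 := by norm_num
      hG := by rw [wl]; exact L.lb.d1
      hK0 := by positivity
      hK := by rw [wl]; exact fun x hx j k => L.lb.d2 x hx j k
      hγ0 := by positivity
      cv1 := fun v => by rw [wl]; exact (loc_hess h m L L.hx v).ge
      cv2 := fun v => by rw [wl]; exact (loc_hess h m L L.hy v).ge
      hl0 := by
        rw [ws, wl]
        linarith [(loc_lam h m L).1] }

/-- **The frames of zone II on the package.** -/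
theorem frP (L : Loc q d z) : ∃ Ψ, Fr2 d.s₁ d.s₂ (gi d.s₁) (cT n * q.ε)
    (cT n * q.ε * q.R⁻¹ * ‖dif z‖ + hP q d z) z (rt (d.s₁ z.1)) (rt (d.s₂ z.2)) Ψ := by
  have hR : 0 < q.R := by linarith [m.R1]
  have hi : 0 ≤ q.R⁻¹ := inv_nonneg.2 hR.le
  have hε := m.ε0
  have hc : 0 ≤ cT n := by linarith [cT_ge n]
  obtain ⟨n₁, n₂, ng⟩ := ten h m (Ob z) (Ob_open z)
  have t := eT_le h m
  exact frames_rt (Ob_open z) (Ob_convex z) n₁ n₂ ng (loc_dst h m L) (by positivity)
    (gdl h m.ε0) (by linarith [t.2]) (by linarith [t.1]) L.hx L.hy (loc_gs h m _)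

/-- **The smooth frames on the package**, on every open set of pairs. -/
theorem frU {U : Set (VV n)} (hU : IsOpen U) :
    H814.B2.Fr d.sx d.sy (frx d.s₁) (fry d.s₂) U (fun _ => 1) := by
  obtain ⟨n₁, n₂, -⟩ := ten h m univ isOpen_univ
  have t := eT_le h m
  exact frIIU isOpen_univ isOpen_univ n₁ n₂ (by linarith [t.1]) (by linarith [t.1]) hU
    fun _ _ => ⟨mem_univ _, mem_univ _⟩

/-- The slots are elliptic. -/
theorem elX (z : VV n) : H86.Z.El d.sx z := by
  obtain ⟨n₁, -, -⟩ := ten h m univ isOpen_univ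
  have h2 := (eT_le h m).1
  have key : ∀ A : V n, |bf (d.s₁ z.1) A A - dt A A| ≤ 1 / 8 * dt A A := fun A =>
    (bf_near (n₁.b0 z.1 (mem_univ _)) A).trans (mul_le_mul_of_nonneg_right h2 (dt_nonneg A))
  have e : ∀ A : V n, ∑ i, A i ^ 2 = dt A A := fun A =>
    Finset.sum_congr rfl fun i _ => pow_two _
  constructor
  · intro A
    have := abs_le.1 (key A)
    have h0 := dt_nonneg A
    rw [e]
    change bf (d.s₁ z.1) A A ≤ _
    linarith [this.2]
  · intro A
    have := abs_le.1 (key A)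
    have h0 := dt_nonneg A
    rw [e]
    change _ ≤ 2 * bf (d.s₁ z.1) A A
    linarith [this.1]

theorem elY (z : VV n) : H86.Z.El d.sy z := by
  obtain ⟨-, n₂, -⟩ := ten h m univ isOpen_univ
  have h2 := (eT_le h m).1
  have key : ∀ A : V n, |bf (d.s₂ z.2) A A - dt A A| ≤ 1 / 8 * dt A A := fun A =>
    (bf_near (n₂.b0 z.2 (mem_univ _)) A).trans (mul_le_mul_of_nonneg_right h2 (dt_nonneg A))
  have e : ∀ A : V n, ∑ i, A i ^ 2 = dt A A := fun A =>
    Finset.sum_congr rfl fun i _ => pow_two _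
  constructor
  · intro A
    have := abs_le.1 (key A)
    have h0 := dt_nonneg A
    rw [e]
    change bf (d.s₂ z.2) A A ≤ _
    linarith [this.2]
  · intro A
    have := abs_le.1 (key A)
    have h0 := dt_nonneg A
    rw [e]
    change _ ≤ 2 * bf (d.s₂ z.2) A A
    linarith [this.1]

/-- The difference of the frames. -/
theorem fr_difP (L : Loc q d z) (a i : Fin n) : |frx d.s₁ a i z - fry d.s₂ a i z| ≤
    n * (n * (cT n * q.ε * q.R⁻¹) * ‖dif z‖ + hP q d z) := by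
  have hR : 0 < q.R := by linarith [m.R1]
  have hi : 0 ≤ q.R⁻¹ := inv_nonneg.2 hR.le
  have hε := m.ε0
  have hc : 0 ≤ cT n := by linarith [cT_ge n]
  obtain ⟨n₁, n₂, -⟩ := ten h m (Ob z) (Ob_open z)
  have t := eT_le h m
  exact fr_dif (Ob_open z) (Ob_convex z) n₁ n₂ (loc_dst h m L) (by linarith [t.1])
    (by linarith [t.1]) (by positivity) (gdl h m.ε0) ⟨L.hx, L.hy⟩ a i

/-- The difference of the tensors is much smaller than `r` where `m ≥ c`. -/
theorem hP_r (L : Loc q d z) (hu : -1 ≤ d.u q z) {c : ℝ} (hc : 0 < c)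
    (hm : c ^ 2 ≤ d.m q z) :
    hP q d z ≤ q.ε * (Real.exp (200 * n + 100) / c) * √(d.r2 z) := by
  have hε := m.ε0
  have um := abs_le.1 L.um
  have hE : 0 < Real.exp (-(d.u q z / 2)) := Real.exp_pos _
  have h1 : c * Real.exp (-(d.u q z / 2)) ≤ √(d.r2 z) := by
    apply Real.le_sqrt_of_sq_le
    have e1 : Real.exp (-(d.u q z / 2)) ^ 2 = Real.exp (-d.u q z) := by
      rw [← Real.exp_nat_mul]; congr 1; push_cast; ring
    rw [mul_pow, e1]
    have e2 : Real.exp (-d.u q z) * d.E q z = 1 := by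
      unfold Pk.E
      rw [← Real.exp_add]; simp
    calc c ^ 2 * Real.exp (-d.u q z) ≤ d.m q z * Real.exp (-d.u q z) := by gcongr
      _ = (Real.exp (-d.u q z) * d.E q z) * d.r2 z := by unfold Pk.m; ring
      _ = d.r2 z := by rw [e2, one_mul]
  have h2 : Real.exp (-(100 * (d.l (mid z) - 2 * n))) ≤
      Real.exp (200 * n + 100) * Real.exp (-(d.u q z / 2)) := by
    rw [← Real.exp_add]
    apply Real.exp_le_exp.2
    linarith [um.1, um.2]
  unfold hP
  calc q.ε * Real.exp (-(100 * (d.l (mid z) - 2 * n))) ≤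
        q.ε * (Real.exp (200 * n + 100) * Real.exp (-(d.u q z / 2))) := by gcongr
    _ = q.ε * (Real.exp (200 * n + 100) / c) * (c * Real.exp (-(d.u q z / 2))) := by
        field_simp
    _ ≤ _ := by gcongr

/-- The distance in terms of `r`. -/
theorem dif_r : ‖dif z‖ ≤ 2 * √(d.r2 z) := by
  have hn : 0 < n := m.n1
  obtain ⟨-, -, ng⟩ := ten h m univ isOpen_univ
  have h1 := (rq_bd ng (by linarith [(eT_le h m).1] : (n : ℝ) * (cT n * q.ε) ≤ 1 / 2)
    (mem_univ (mid z))).1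
  have h2 := H606.Z.nsq_le_dt hn (dif z)
  have h3 : ‖dif z‖ / 2 ≤ √(d.r2 z) := by
    apply Real.le_sqrt_of_sq_le
    change _ ≤ 2 * rq (gi d.s₁) z
    nlinarith [sq_nonneg ‖dif z‖]
  linarith

/-- **The frames of zone II**: helper870's `MB`. -/
theorem mbP (L : Loc q d z) (hu : -1 ≤ d.u q z) {c A : ℝ} (hc : 0 < c)
    (hm : c ^ 2 ≤ d.m q z)
    (hA : n * (2 * n * (cT n * q.ε) + q.ε * (Real.exp (200 * n + 100) / c)) ≤ A) :
    H870.Z2.MB d.sx d.sy (frx d.s₁) (fry d.s₂) A (√(d.r2 z)) z := by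
  have hR : 0 < q.R := by linarith [m.R1]
  have hi : 0 ≤ q.R⁻¹ := inv_nonneg.2 hR.le
  have hi1 : q.R⁻¹ ≤ 1 := inv_le_one_of_one_le₀ m.R1
  have hε := m.ε0
  have hcT : 0 ≤ cT n := by linarith [cT_ge n]
  obtain ⟨n₁, n₂, -⟩ := ten h m univ isOpen_univ
  have t := eT_le h m
  have hr := Real.sqrt_nonneg (d.r2 z)
  refine ⟨fun i j => rt_fp n₁ (by linarith [t.1]) (mem_univ _) i j,
    fun i j => rt_fp n₂ (by linarith [t.1]) (mem_univ _) i j, fun a i => ?_⟩
  refine (fr_difP h m L a i).trans ?_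
  have h1 := hP_r h m L hu hc hm
  have h2 := dif_r (z := z) h m
  have h3 : (n : ℝ) * (cT n * q.ε * q.R⁻¹) * ‖dif z‖ ≤
      2 * n * (cT n * q.ε) * √(d.r2 z) := by
    calc (n : ℝ) * (cT n * q.ε * q.R⁻¹) * ‖dif z‖ ≤
          n * (cT n * q.ε * 1) * (2 * √(d.r2 z)) := by gcongr
      _ = _ := by ring
  calc (n : ℝ) * (n * (cT n * q.ε * q.R⁻¹) * ‖dif z‖ + hP q d z) ≤
        n * (2 * n * (cT n * q.ε) * √(d.r2 z) +
          q.ε * (Real.exp (200 * n + 100) / c) * √(d.r2 z)) := by gcongr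
    _ = n * (2 * n * (cT n * q.ε) + q.ε * (Real.exp (200 * n + 100) / c)) * √(d.r2 z) := by
        ring
    _ ≤ A * √(d.r2 z) := by gcongr

end pk

/-- The number condition of `mbP`. -/
theorem ev_mb (n : ℕ) {c A : Cst → ℝ} (nc : NB_ε c) (nA : NB_ε A) (c0 : ∀ q, 0 < c q)
    (A0 : ∀ q, 0 < A q) : EvC fun q =>
      n * (2 * n * (cT n * q.ε) + q.ε * (Real.exp (200 * n + 100) / c q)) ≤ A q := by
  have := EvC.at_ε (fun q t =>
    n * (2 * n * (cT n * t) + t * (Real.exp (200 * n + 100) / c q)) ≤ A q) fun q => by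
      have h1 := c0 q
      have h2 := A0 q
      have h3 : 0 ≤ cT n := by linarith [cT_ge n]
      set B : ℝ := n * (2 * n * cT n + Real.exp (200 * n + 100) / c q) with hB
      have hB0 : 0 ≤ B := by positivity
      refine ev_sml (a := A q / (B + 1)) (by positivity) fun t h4 h5 => ?_
      rw [le_div_iff₀ (by positivity)] at h5
      calc n * (2 * n * (cT n * t) + t * (Real.exp (200 * n + 100) / c q)) = t * B := by
            rw [hB]; ring
        _ ≤ t * (B + 1) := by nlinarith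
        _ ≤ A q := h5
  refine this.mono fun q hq => ?_
  have e1 : c q.b_ε = c q := nc q
  have e2 : A q.b_ε = A q := nA q
  have := hq
  simp only [e1, e2] at this
  exact this

end Vale.Agent.P088.R2.H475.Z
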