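import Vale.Agent.P088.R2.H475.Z.GdP
import Vale.Agent.P088.R2.H606.EP.Al

/-!
# P088, zone II: the frames at the points of `z2a`, `z2b`

`mbE`: helper870's `MB` for `frx d.s₁`, `fry d.s₂` with the constant `1`.
-/

open Set Filter
open scoped ContDiff Topology Matrix

noncomputable section

namespace Vale.Agent.P088.R2.H475.Z

open Vale.Agent.P088.LR Vale.Agent.P088.HY Vale.Agent.P088.R2.H464.Cu Vale.Agent.P088.R2.H31.EP
open Vale.Agent.P088.R2.H606.EP

variable {n : ℕ} {q : Cst} {d : Pk n} {z : VV n} {a X : ℝ}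

/-- The number of `mbE`. -/
def Mn (n : ℕ) (q : Cst) : Prop :=
  n * (2 * n * (cT n * q.ε) + q.ε * (Real.exp (200 * n + 100) / 1)) ≤ 1

theorem evMn (n : ℕ) : EvC (Mn n) :=
  ev_mb n (c := fun _ => 1) (A := fun _ => 1) (fun _ => rfl) (fun _ => rfl)
    (fun _ => one_pos) fun _ => one_pos

/-- The frames, at a point of zone II. -/
theorem mb_al (h : PkOk q d) (m : Zn n a X q) (A : H606.EP.Al a X q d z) (hm : Mn n q) :
    H870.Z2.MB d.sx d.sy (frx d.s₁) (fry d.s₂) 1 (√(d.r2 z)) z :=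
  mbP h m.toLm A.lo (by linarith [A.u0]) one_pos (by linarith [A.mX, m.X0]) hm

/-- **The frames of zone II.** -/
theorem mbE (hn : 1 ≤ n) : EvC fun q => ∀ d : Pk n, PkOk q d → ∀ z, H606.EP.Z2 q d z →
    H870.Z2.MB d.sx d.sy (frx d.s₁) (fry d.s₂) 1 (√(d.r2 z)) z :=
  ((evZn hn one_pos (fun _ => 1) (fun _ => rfl) fun _ => le_rfl).and (evMn n)).mono
    fun _ hq _ h _ hz => mb_al h hq.1 (H606.EP.al h hq.1 hz) hq.2

end Vale.Agent.P088.R2.H475.Z
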